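import Vale.Agent.P249.Exact

open Filter Topology
open scoped ENNReal
open Vale.Agent.P249

namespace Vale.Agent.Results.P249.Exact

universe u

theorem result (p : ℝ≥0∞) [Fact (1 ≤ p)] (hp1 : 1 < p) (hp : p ≠ ∞) :
    (∀ (n : ℕ) (D : ℝ), 1 ≤ D → IsLeast {d | Embeds.{u} p n D d} (dimP.{u} p n D)) ∧
    max (1 / p.toReal) (1 - 1 / (p.toReal * (p.toReal - 1))) < 1 ∧
    (∀ D : ℝ, 1 < D →
      (∀ n : ℕ, 2 ≤ n → Real.log n / Real.log (1 + 2 * D) ≤ (dimP.{u} p n D : ℝ)) ∧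
      (∀ γ : ℝ, max (1 / p.toReal) (1 - 1 / (p.toReal * (p.toReal - 1))) < γ →
        ∃ C : ℝ, ∀ n : ℕ, 2 ≤ n → (dimP.{u} p n D : ℝ) ≤ Real.exp (C * Real.log n ^ γ)) ∧
      ∀ ε : ℝ, 0 < ε →
        Tendsto (fun n : ℕ => (dimP.{u} p n D : ℝ) / (n : ℝ) ^ ε) atTop (𝓝 0)) ∧
    (p ≠ 2 → ∀ n : ℕ, ((n - 1) / 4) ^ 2 ≤ dimP.{u} p n 1 ∧ dimP.{u} p n 1 ≤ n.choose 2) := by
  have hq : 1 < p.toReal := by
    rw [← ENNReal.toReal_one]
    exact (ENNReal.toReal_lt_toReal ENNReal.one_ne_top hp).2 hp1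
  have hg : max (1 / p.toReal) (1 - 1 / (p.toReal * (p.toReal - 1))) < 1 := by
    have : 0 < p.toReal - 1 := by linarith
    exact max_lt ((div_lt_one (by linarith)).2 hq) (sub_lt_self _ (by positivity))
  refine ⟨fun n D hD => dimP_isLeast p hp n hD, hg, fun D hD => ?_, fun hp2 n =>
    ⟨exact_lower hp1 hp hp2 (dimP_isLeast p hp n le_rfl).1,
      (dimP_isLeast p hp n le_rfl).2 (embeds_choose p hp n le_rfl)⟩⟩
  have hup : ∀ γ : ℝ, max (1 / p.toReal) (1 - 1 / (p.toReal * (p.toReal - 1))) < γ →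
      ∃ C : ℝ, ∀ n : ℕ, 2 ≤ n → (dimP.{u} p n D : ℝ) ≤ Real.exp (C * Real.log n ^ γ) := by
    intro γ hγ
    obtain ⟨C, h⟩ := lp_embed'.{u} p hp1 hp D hD hγ
    refine ⟨C, fun n hn => ?_⟩
    obtain ⟨d, hd, he⟩ := h n hn
    exact le_trans (by exact_mod_cast (dimP_isLeast p hp n hD.le).2 he) hd
  refine ⟨fun n hn => vol_lower hp (by linarith) (by omega) (dimP_isLeast p hp n hD.le).1, hup,
    fun ε hε => ?_⟩
  obtain ⟨γ, hγ, hγ1⟩ := exists_between hg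
  obtain ⟨C, h⟩ := hup γ hγ
  refine squeeze_zero' (Eventually.of_forall fun n => by positivity) ?_
    (small_power (C := C) hγ1 hε)
  filter_upwards [eventually_ge_atTop 2] with n hn
  exact div_le_div_of_nonneg_right (h n hn) (by positivity)

end Vale.Agent.Results.P249.Exact
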