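import Vale.Agent.P249.Reduce

open Filter Topology MeasureTheory
open scoped ENNReal

namespace Vale.Agent.Results.P249.Subpoly

universe u

theorem result (p : ℝ≥0∞) [Fact (1 ≤ p)] (hp1 : 1 < p) (hp : p ≠ ∞) (D : ℝ) (hD : 1 < D) :
    ∃ (γ C : ℝ) (d : ℕ → ℕ), γ < 1 ∧
      (∀ n : ℕ, 2 ≤ n → (d n : ℝ) ≤ Real.exp (C * Real.log n ^ γ)) ∧
      (∀ ε : ℝ, 0 < ε → Tendsto (fun n : ℕ => (d n : ℝ) / (n : ℝ) ^ ε) atTop (𝓝 0)) ∧
      ∀ n : ℕ, 2 ≤ n → ∀ (Ω : Type u) [MeasurableSpace Ω] (μ : Measure Ω)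
        (X : Finset (Lp ℝ p μ)), X.card = n →
        ∃ (f : Lp ℝ p μ → PiLp p fun _ : Fin (d n) => ℝ) (s : ℝ), 0 < s ∧ ∀ x ∈ X, ∀ y ∈ X,
          s * ‖x - y‖ ≤ ‖f x - f y‖ ∧ ‖f x - f y‖ ≤ D * s * ‖x - y‖ := by
  obtain ⟨γ, C, hγ, h⟩ := Vale.Agent.P249.lp_embed.{u} p hp1 hp D hD
  choose! d hd hX using h
  refine ⟨γ, C, d, hγ, hd, fun ε hε => ?_, hX⟩
  refine squeeze_zero' (Eventually.of_forall fun n => by positivity) ?_
    (Vale.Agent.P249.small_power (C := C) hγ hε)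
  filter_upwards [eventually_ge_atTop 2] with n hn
  exact div_le_div_of_nonneg_right (hd n hn) (by positivity)

end Vale.Agent.Results.P249.Subpoly
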